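import Vale.Agent.P246.Small.Gen
import Vale.Agent.P246.Q24.I2
import Vale.Agent.P246.Q24.E2
import Vale.Agent.P246.Q24.H2
import Vale.Agent.P246.Q36.W0

/-!
# The D(2) property for `Q_8`
-/

set_option linter.all false

namespace Vale.Agent.P246.Small

open Vale.Agent.P246 Vale.Agent.P246.Q24 Vale.Agent.P246.Gen QuaternionGroup

/-- the image of `x` in `ℤ[C_2²]` -/
def x1 : T1 := ⟨⟨0, 1⟩, ⟨0, 0⟩⟩
/-- the image of `x` in the Lipschitz quaternions -/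
def x2 : T2 := ⟨⟨0, 1⟩, ⟨0, 0⟩⟩
/-- the image of `y` in `ℤ[C_2²]` -/
def y1 : T1 := ⟨⟨0, 0⟩, ⟨1, 0⟩⟩
/-- the image of `y` in the Lipschitz quaternions -/
def y2 : T2 := ⟨⟨0, 0⟩, ⟨1, 0⟩⟩

/-- the projection to `ℤ[C_2²]` -/
noncomputable def p1 : ZG (QuaternionGroup 2) →+* T1 :=
  prS 2 x1 y1 (by decide) (by decide) (by decide)
/-- the projection to the Lipschitz quaternions -/
noncomputable def p2 : ZG (QuaternionGroup 2) →+* T2 :=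
  prS 2 x2 y2 (by decide) (by decide) (by decide)

theorem p1_X : p1 (Xn 2) = x1 := prS_X 2 _ _ _ _ _
theorem p1_Y : p1 (Yn 2) = y1 := prS_Y 2 _ _ _ _ _
theorem p2_X : p2 (Xn 2) = x2 := prS_X 2 _ _ _ _ _
theorem p2_Y : p2 (Yn 2) = y2 := prS_Y 2 _ _ _ _ _

theorem p12 (z : ZG (QuaternionGroup 2)) : a12 (p1 z) = b12 (p2 z) := by
  have h : a12.comp p1 = b12.comp p2 := by
    apply ZG_hom_ext 2
    · rw [RingHom.comp_apply, RingHom.comp_apply, p1_X, p2_X]; decide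
    · rw [RingHom.comp_apply, RingHom.comp_apply, p1_Y, p2_Y]; decide
  exact DFunLike.congr_fun h z

/-- elements in coordinates -/
noncomputable def cmb (u0 u1 u2 u3 v0 v1 v2 v3 : ℤ) : ZG (QuaternionGroup 2) :=
  u0 • 1 + u1 • Xn 2 + u2 • Xn 2 ^ 2 + u3 • Xn 2 ^ 3 +
    (v0 • 1 + v1 • Xn 2 + v2 • Xn 2 ^ 2 + v3 • Xn 2 ^ 3) * Yn 2

theorem exists_cmb (z : ZG (QuaternionGroup 2)) : ∃ u0 u1 u2 u3 v0 v1 v2 v3,
    z = cmb u0 u1 u2 u3 v0 v1 v2 v3 := by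
  obtain ⟨u, v, h⟩ := exists_coord 2 z
  refine ⟨u 0, u 1, u 2, u 3, v 0, v 1, v 2, v 3, ?_⟩
  rw [h]
  have e : ∀ w : Fin (2 * 2) → ℤ, ∑ i, w i • Xn 2 ^ (i : ℕ) =
      w 0 • (1 : ZG (QuaternionGroup 2)) + w 1 • Xn 2 + w 2 • Xn 2 ^ 2 + w 3 • Xn 2 ^ 3 := by
    intro w
    change ∑ i : Fin 4, w i • Xn 2 ^ (i : ℕ) = _
    rw [Fin.sum_univ_four]
    simp only [Fin.val_zero, Fin.val_one, pow_zero, pow_one]
    rfl
  rw [e u, e v]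
  rfl

theorem p1_cmb (u0 u1 u2 u3 v0 v1 v2 v3 : ℤ) : p1 (cmb u0 u1 u2 u3 v0 v1 v2 v3) =
    ⟨⟨u0 + u2, u1 + u3⟩, ⟨v0 + v2, v1 + v3⟩⟩ := by
  simp only [cmb, map_add, map_mul, map_zsmul, map_one, map_pow, p1_X, p1_Y]
  have e2 : x1 ^ 2 = ⟨⟨1, 0⟩, ⟨0, 0⟩⟩ := by decide
  have e3 : x1 ^ 3 = ⟨⟨0, 1⟩, ⟨0, 0⟩⟩ := by decide
  rw [e2, e3]
  ext <;> simp [x1, y1]

theorem p2_cmb (u0 u1 u2 u3 v0 v1 v2 v3 : ℤ) : p2 (cmb u0 u1 u2 u3 v0 v1 v2 v3) =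
    ⟨⟨u0 - u2, u1 - u3⟩, ⟨v0 - v2, v1 - v3⟩⟩ := by
  simp only [cmb, map_add, map_mul, map_zsmul, map_one, map_pow, p2_X, p2_Y]
  have e2 : x2 ^ 2 = ⟨⟨-1, 0⟩, ⟨0, 0⟩⟩ := by decide
  have e3 : x2 ^ 3 = ⟨⟨0, -1⟩, ⟨0, 0⟩⟩ := by decide
  rw [e2, e3]
  ext <;> simp [x2, y2] <;> ring

theorem inj12 (z : ZG (QuaternionGroup 2)) (h1 : p1 z = 0) (h2 : p2 z = 0) : z = 0 := by
  obtain ⟨u0, u1, u2, u3, v0, v1, v2, v3, rfl⟩ := exists_cmb z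
  rw [p1_cmb] at h1
  rw [p2_cmb] at h2
  have a1 := congrArg (fun t : T1 => t.fst.re) h1
  have a2 := congrArg (fun t : T1 => t.fst.im) h1
  have a3 := congrArg (fun t : T1 => t.snd.re) h1
  have a4 := congrArg (fun t : T1 => t.snd.im) h1
  have b1 := congrArg (fun t : T2 => t.fst.re) h2
  have b2 := congrArg (fun t : T2 => t.fst.im) h2
  have b3 := congrArg (fun t : T2 => t.snd.re) h2
  have b4 := congrArg (fun t : T2 => t.snd.im) h2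
  simp at a1 a2 a3 a4 b1 b2 b3 b4
  obtain ⟨rfl, rfl, rfl, rfl⟩ : u0 = 0 ∧ u1 = 0 ∧ u2 = 0 ∧ u3 = 0 := by omega
  obtain ⟨rfl, rfl, rfl, rfl⟩ : v0 = 0 ∧ v1 = 0 ∧ v2 = 0 ∧ v3 = 0 := by omega
  simp [cmb]

theorem half_F2 {x y : ℤ} (h : zF2 x = zF2 y) : ∃ k, x = y + 2 * k := by
  have h1 : ((x : ℤ) : ZMod 2) = ((y : ℤ) : ZMod 2) := h
  obtain ⟨k, hk⟩ := (ZMod.intCast_eq_intCast_iff_dvd_sub y x 2).1 h1.symm
  refine ⟨k, ?_⟩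
  push_cast at hk
  linarith

theorem surj12 (s : T1) (t : T2) (h : a12 s = b12 t) : ∃ z, p1 z = s ∧ p2 z = t := by
  have a1 := congrArg (fun t : T F2 false => t.fst.re) h
  have a2 := congrArg (fun t : T F2 false => t.fst.im) h
  have a3 := congrArg (fun t : T F2 false => t.snd.re) h
  have a4 := congrArg (fun t : T F2 false => t.snd.im) h
  obtain ⟨k1, h1⟩ := half_F2 (x := s.fst.re) (y := t.fst.re) a1
  obtain ⟨k2, h2⟩ := half_F2 (x := s.fst.im) (y := t.fst.im) a2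
  obtain ⟨k3, h3⟩ := half_F2 (x := s.snd.re) (y := t.snd.re) a3
  obtain ⟨k4, h4⟩ := half_F2 (x := s.snd.im) (y := t.snd.im) a4
  refine ⟨cmb (t.fst.re + k1) (t.fst.im + k2) k1 k2 (t.snd.re + k3) (t.snd.im + k4) k3 k4,
    ?_, ?_⟩
  · rw [p1_cmb]
    ext <;> simp [h1, h2, h3, h4] <;> ring
  · rw [p2_cmb]
    ext <;> simp

/-- the D(2) property for the quaternion group of order eight -/
theorem main2 : AlgebraicD2Property (QuaternionGroup 2) := by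
  apply d2_of_KG 2
  intro a b c d h
  have h1 : p1 c * p1 a + p1 d * p1 b = 1 := by
    rw [← map_mul, ← map_mul, ← map_add, h, map_one]
  have h2 : p2 c * p2 a + p2 d * p2 b = 1 := by
    rw [← map_mul, ← map_mul, ← map_add, h, map_one]
  obtain ⟨g, k, hgk, hkg, e0, e1, K2⟩ := TR_T2.kg h2
  obtain ⟨ε, ε', u1, u2, l1, l2⟩ := lift12 (p12 a) (p12 b) hgk hkg e0 e1
  have hc : ∀ x y : T1, x * y = y * x := fun x y => by ext <;> simp <;> ring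
  have K1 : KG (p1 a) (p1 b) (-p1 b) (p1 a) := Gen.KG_comm hc ⟨_, _, h1⟩
  obtain ⟨u, v, -, -, -, -, hk⟩ := Q36.KG_glue p1 p2 a12 b12 p12 inj12 surj12 h K1
    (Gen.KG.scale K2 u1 u2) l1 l2
  exact ⟨u, v, hk⟩

end Vale.Agent.P246.Small
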