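import Vale.Agent.P246.Gen.J
import Vale.Agent.P246.Gen.K
import Vale.Agent.P246.Q24.E1
import Vale.Agent.P246.Q24.H1

/-!
# Quaternion groups whose unimodular columns all have free kernels
-/

set_option linter.all false

namespace Vale.Agent.P246.Small

open Vale.Agent.P246 Vale.Agent.P246.Q24 Vale.Agent.P246.Gen QuaternionGroup

section generic

variable {T : Type} [Ring T]

/-- the kernel of a column with a kernel generator is free of rank one -/
noncomputable def kgEquiv {a b u v : T} (h : KG a b u v) : T ≃ₗ[T] LinearMap.ker (colR a b) := by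
  let f : T →ₗ[T] LinearMap.ker (colR a b) :=
    { toFun := fun t => ⟨![t * u, t * v], by
        change t * u * a + t * v * b = 0
        rw [mul_assoc, mul_assoc, ← mul_add, h.ker, mul_zero]⟩
      map_add' := fun s t => by
        apply Subtype.ext
        funext i
        fin_cases i
        · exact add_mul s t u
        · exact add_mul s t v
      map_smul' := fun s t => by
        apply Subtype.ext
        funext i
        fin_cases i
        · exact mul_assoc s t u
        · exact mul_assoc s t v }
  refine LinearEquiv.ofBijective f ⟨?_, ?_⟩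
  · rw [← LinearMap.ker_eq_bot, LinearMap.ker_eq_bot']
    intro t ht
    have h0 := congrArg Subtype.val ht
    exact h.free (congrFun h0 0) (congrFun h0 1)
  · rintro ⟨w, hw⟩
    obtain ⟨t, h1, h2⟩ := h.gen (w 0) (w 1) hw
    refine ⟨t, ?_⟩
    apply Subtype.ext
    funext i
    fin_cases i
    · exact h1.symm
    · exact h2.symm

theorem TR.exKG (hT : TR T) {a b c d : T} (h : c * a + d * b = 1) : ∃ u v, KG a b u v := by
  obtain ⟨g, k, -, -, -, -, hk⟩ := hT.kg h
  exact ⟨_, _, hk⟩

end generic

section

variable (n : ℕ) [NeZero n]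

/-- if the kernel of every unimodular column over `ℤ[Q_4n]` is free, the group has the D(2)
property -/
theorem d2_of_KG (H : ∀ a b c d : ZG (QuaternionGroup n), c * a + d * b = 1 →
    ∃ u v, KG a b u v) : AlgebraicD2Property (QuaternionGroup n) := by
  apply d2_of n
  intro a b c d h
  obtain ⟨u, v, hk⟩ := H a b c d h
  exact realized_std n ⟨(kgEquiv hk).symm.trans (kgEquiv (KG_col (Xn n - Yn n)))⟩

theorem d2_of_TR (H : TR (ZG (QuaternionGroup n))) : AlgebraicD2Property (QuaternionGroup n) :=
  d2_of_KG n fun _ _ _ _ h => TR.exKG H h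

variable {S : Type} [Ring S]

/-- the homomorphism out of the group ring given by `x`, `y` -/
noncomputable def prS (x y : S) (h1 : x ^ (2 * n) = 1) (h2 : y * y = x ^ n)
    (h3 : x * y * x = y) : ZG (QuaternionGroup n) →+* S :=
  (MonoidAlgebra.lift ℤ S (QuaternionGroup n) (quatHom x y h1 h2 h3)).toRingHom

theorem prS_elt (x y : S) (h1 : x ^ (2 * n) = 1) (h2 : y * y = x ^ n) (h3 : x * y * x = y)
    (g : QuaternionGroup n) : prS n x y h1 h2 h3 (elt g) = quatHom x y h1 h2 h3 g := by
  simp [prS, elt]

theorem prS_X (x y : S) (h1 : x ^ (2 * n) = 1) (h2 : y * y = x ^ n) (h3 : x * y * x = y) :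
    prS n x y h1 h2 h3 (Xn n) = x := by
  rw [Xn, prS_elt, quatHom_a, pw]
  rcases eq_or_ne n 0 with h0 | h0
  · exact absurd h0 (NeZero.ne n)
  · have : (1 : ZMod (2 * n)).val = 1 := by
      have : Fact (1 < 2 * n) := ⟨by omega⟩
      exact ZMod.val_one (2 * n)
    rw [this, pow_one]

theorem prS_Y (x y : S) (h1 : x ^ (2 * n) = 1) (h2 : y * y = x ^ n) (h3 : x * y * x = y) :
    prS n x y h1 h2 h3 (Yn n) = y := by
  rw [Yn, prS_elt, quatHom_xa, pw_zero, mul_one]

theorem ZG_hom_ext {f g : ZG (QuaternionGroup n) →+* S} (h1 : f (Xn n) = g (Xn n))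
    (h2 : f (Yn n) = g (Yn n)) : f = g := by
  apply MonoidAlgebra.ringHom_ext'
  · exact RingHom.ext_int _ _
  · exact quat_hom_ext h1 h2

theorem Xn_pow (k : ℕ) : Xn n ^ k = elt (a (k : ZMod (2 * n))) := by
  have h : Xn n ^ k = elt ((a 1 : QuaternionGroup n) ^ k) := by
    induction k with
    | zero => rw [pow_zero, pow_zero, elt_one]
    | succ k ih => rw [pow_succ, ih, pow_succ, Xn, elt_mul_elt]
  rw [h, a_one_pow]

/-- coordinates: every element is `∑ u_i x^i + (∑ v_i x^i) y` -/
theorem exists_coord (z : ZG (QuaternionGroup n)) : ∃ u v : Fin (2 * n) → ℤ,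
    z = ∑ i, u i • Xn n ^ (i : ℕ) + (∑ i, v i • Xn n ^ (i : ℕ)) * Yn n := by
  classical
  induction z using MonoidAlgebra.induction_linear with
  | zero => exact ⟨0, 0, by simp⟩
  | add z w hz hw =>
    obtain ⟨u, v, rfl⟩ := hz
    obtain ⟨u', v', rfl⟩ := hw
    refine ⟨u + u', v + v', ?_⟩
    simp only [Pi.add_apply, add_smul, Finset.sum_add_distrib, add_mul]
    abel
  | single g m =>
    have h2n : NeZero (2 * n) := ⟨by have := NeZero.ne n; omega⟩
    have h0 : (MonoidAlgebra.single g m : ZG (QuaternionGroup n)) = m • elt g := by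
      simp [elt]
    have key : ∀ i : ZMod (2 * n), m • (elt (a i) : ZG (QuaternionGroup n)) =
        ∑ j : Fin (2 * n), (if j = ⟨i.val, ZMod.val_lt i⟩ then m else 0) • Xn n ^ (j : ℕ) := by
      intro i
      have h1 : (elt (a i) : ZG (QuaternionGroup n)) = Xn n ^ i.val := by
        rw [Xn_pow, ZMod.natCast_zmod_val]
      rw [Finset.sum_eq_single ⟨i.val, ZMod.val_lt i⟩]
      · rw [if_pos rfl, h1]
      · intro j _ hj
        rw [if_neg hj, zero_smul]
      · intro h
        exact absurd (Finset.mem_univ _) h
    rw [h0]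
    rcases g with i | i
    · refine ⟨fun j => if j = ⟨i.val, ZMod.val_lt i⟩ then m else 0, 0, ?_⟩
      rw [key i]
      simp only [Pi.zero_apply, zero_smul, Finset.sum_const_zero, zero_mul, add_zero]
    · refine ⟨0, fun j => if j = ⟨(-i).val, ZMod.val_lt (-i)⟩ then m else 0, ?_⟩
      have h1 : (elt (xa i) : ZG (QuaternionGroup n)) = elt (a (-i)) * Yn n := by
        rw [Yn, elt_mul_elt, a_mul_xa]
        congr 2
        abel
      rw [h1, ← smul_mul_assoc, key (-i)]
      simp only [Pi.zero_apply, zero_smul, Finset.sum_const_zero, zero_add]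

end

/-! ### `n = 1` -/

theorem comm1 (g h : QuaternionGroup 1) : g * h = h * g := by
  revert g h
  decide

theorem ZG_comm1 (x y : ZG (QuaternionGroup 1)) : x * y = y * x := by
  induction x using MonoidAlgebra.induction_linear with
  | zero => rw [zero_mul, mul_zero]
  | add x x' h h' => rw [add_mul, mul_add, h, h']
  | single g m =>
    induction y using MonoidAlgebra.induction_linear with
    | zero => rw [zero_mul, mul_zero]
    | add x x' h h' => rw [add_mul, mul_add, h, h']
    | single g' m' =>
      rw [MonoidAlgebra.single_mul_single, MonoidAlgebra.single_mul_single, comm1, mul_comm]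

/-- the D(2) property for the cyclic group of order four -/
theorem main1 : AlgebraicD2Property (QuaternionGroup 1) := by
  apply d2_of_TR 1
  letI : CommRing (ZG (QuaternionGroup 1)) :=
    { (inferInstance : Ring (ZG (QuaternionGroup 1))) with
      mul_comm := ZG_comm1 }
  exact TR_comm (ZG (QuaternionGroup 1))

end Vale.Agent.P246.Small
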