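import Vale.Agent.P246.Small.Gen
import Vale.Agent.P246.Small.N2
import Vale.Agent.P246.Q36.W3
import Vale.Agent.P246.Q36.Lift1

/-!
# The D(2) property for `Q_12`
-/

set_option linter.all false

namespace Vale.Agent.P246.Small.N3

open Vale.Agent.P246 Vale.Agent.P246.Q24 Vale.Agent.P246.Gen Vale.Agent.P246.Small
  Vale.Agent.P246.Q36 QuaternionGroup

/-- `ℤ[D_6]` -/
abbrev A1 : Type := Dbl C3 false
/-- `ℤ[C_3]⟨j⟩` -/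
abbrev A2 : Type := Dbl C3 true
/-- `𝔽_2[D_6]` -/
abbrev A0 : Type := Dbl F2C3 false

theorem neg_one_F2C3 : (-1 : F2C3) = 1 := by decide

/-- reduction modulo two -/
def r1 : A1 →+* A0 := ra
/-- reduction modulo two -/
def r2 : A2 →+* A0 := Dbl.red2 neg_one_F2C3 c3m c3m_conj

/-- the image of `x` -/
def x1 : A1 := ⟨⟨0, 1, 0⟩, ⟨0, 0, 0⟩⟩
/-- the image of `x` -/
def x2 : A2 := ⟨⟨0, -1, 0⟩, ⟨0, 0, 0⟩⟩
/-- the image of `y` -/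
def y1 : A1 := ⟨⟨0, 0, 0⟩, ⟨1, 0, 0⟩⟩
/-- the image of `y` -/
def y2 : A2 := ⟨⟨0, 0, 0⟩, ⟨1, 0, 0⟩⟩

/-- the projection to `ℤ[D_6]` -/
noncomputable def p1 : ZG (QuaternionGroup 3) →+* A1 :=
  prS 3 x1 y1 (by decide) (by decide) (by decide)
/-- the projection to `ℤ[C_3]⟨j⟩` -/
noncomputable def p2 : ZG (QuaternionGroup 3) →+* A2 :=
  prS 3 x2 y2 (by decide) (by decide) (by decide)

theorem p1_X : p1 (Xn 3) = x1 := prS_X 3 _ _ _ _ _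
theorem p1_Y : p1 (Yn 3) = y1 := prS_Y 3 _ _ _ _ _
theorem p2_X : p2 (Xn 3) = x2 := prS_X 3 _ _ _ _ _
theorem p2_Y : p2 (Yn 3) = y2 := prS_Y 3 _ _ _ _ _

theorem p12 (z : ZG (QuaternionGroup 3)) : r1 (p1 z) = r2 (p2 z) := by
  have h : r1.comp p1 = r2.comp p2 := by
    apply ZG_hom_ext 3
    · rw [RingHom.comp_apply, RingHom.comp_apply, p1_X, p2_X]; decide
    · rw [RingHom.comp_apply, RingHom.comp_apply, p1_Y, p2_Y]; decide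
  exact DFunLike.congr_fun h z

/-- elements in coordinates -/
noncomputable def cmb (u v : Fin 6 → ℤ) : ZG (QuaternionGroup 3) :=
  (∑ i, u i • Xn 3 ^ (i : ℕ)) + (∑ i, v i • Xn 3 ^ (i : ℕ)) * Yn 3

theorem exists_cmb (z : ZG (QuaternionGroup 3)) : ∃ u v, z = cmb u v := exists_coord 3 z

theorem p1_cmb (u v : Fin 6 → ℤ) : p1 (cmb u v) =
    ⟨⟨u 0 + u 3, u 1 + u 4, u 2 + u 5⟩, ⟨v 0 + v 3, v 1 + v 4, v 2 + v 5⟩⟩ := by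
  simp only [cmb, map_add, map_mul, map_sum, map_zsmul, map_pow, p1_X, p1_Y, Fin.sum_univ_six]
  have e0 : x1 ^ ((0 : Fin 6) : ℕ) = ⟨⟨1, 0, 0⟩, ⟨0, 0, 0⟩⟩ := by decide
  have e1 : x1 ^ ((1 : Fin 6) : ℕ) = ⟨⟨0, 1, 0⟩, ⟨0, 0, 0⟩⟩ := by decide
  have e2 : x1 ^ ((2 : Fin 6) : ℕ) = ⟨⟨0, 0, 1⟩, ⟨0, 0, 0⟩⟩ := by decide
  have e3 : x1 ^ ((3 : Fin 6) : ℕ) = ⟨⟨1, 0, 0⟩, ⟨0, 0, 0⟩⟩ := by decide
  have e4 : x1 ^ ((4 : Fin 6) : ℕ) = ⟨⟨0, 1, 0⟩, ⟨0, 0, 0⟩⟩ := by decide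
  have e5 : x1 ^ ((5 : Fin 6) : ℕ) = ⟨⟨0, 0, 1⟩, ⟨0, 0, 0⟩⟩ := by decide
  rw [e0, e1, e2, e3, e4, e5]
  ext <;> simp [y1] <;> ring

theorem p2_cmb (u v : Fin 6 → ℤ) : p2 (cmb u v) =
    ⟨⟨u 0 - u 3, u 4 - u 1, u 2 - u 5⟩, ⟨v 0 - v 3, v 4 - v 1, v 2 - v 5⟩⟩ := by
  simp only [cmb, map_add, map_mul, map_sum, map_zsmul, map_pow, p2_X, p2_Y, Fin.sum_univ_six]
  have e0 : x2 ^ ((0 : Fin 6) : ℕ) = ⟨⟨1, 0, 0⟩, ⟨0, 0, 0⟩⟩ := by decide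
  have e1 : x2 ^ ((1 : Fin 6) : ℕ) = ⟨⟨0, -1, 0⟩, ⟨0, 0, 0⟩⟩ := by decide
  have e2 : x2 ^ ((2 : Fin 6) : ℕ) = ⟨⟨0, 0, 1⟩, ⟨0, 0, 0⟩⟩ := by decide
  have e3 : x2 ^ ((3 : Fin 6) : ℕ) = ⟨⟨-1, 0, 0⟩, ⟨0, 0, 0⟩⟩ := by decide
  have e4 : x2 ^ ((4 : Fin 6) : ℕ) = ⟨⟨0, 1, 0⟩, ⟨0, 0, 0⟩⟩ := by decide
  have e5 : x2 ^ ((5 : Fin 6) : ℕ) = ⟨⟨0, 0, -1⟩, ⟨0, 0, 0⟩⟩ := by decide
  rw [e0, e1, e2, e3, e4, e5]
  ext <;> simp [y2] <;> ring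

theorem inj12 (z : ZG (QuaternionGroup 3)) (h1 : p1 z = 0) (h2 : p2 z = 0) : z = 0 := by
  obtain ⟨u, v, rfl⟩ := exists_cmb z
  rw [p1_cmb] at h1
  rw [p2_cmb] at h2
  have a1 := congrArg (fun t : A1 => t.fst.x0) h1
  have a2 := congrArg (fun t : A1 => t.fst.x1) h1
  have a3 := congrArg (fun t : A1 => t.fst.x2) h1
  have a4 := congrArg (fun t : A1 => t.snd.x0) h1
  have a5 := congrArg (fun t : A1 => t.snd.x1) h1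
  have a6 := congrArg (fun t : A1 => t.snd.x2) h1
  have b1 := congrArg (fun t : A2 => t.fst.x0) h2
  have b2 := congrArg (fun t : A2 => t.fst.x1) h2
  have b3 := congrArg (fun t : A2 => t.fst.x2) h2
  have b4 := congrArg (fun t : A2 => t.snd.x0) h2
  have b5 := congrArg (fun t : A2 => t.snd.x1) h2
  have b6 := congrArg (fun t : A2 => t.snd.x2) h2
  simp at a1 a2 a3 a4 a5 a6 b1 b2 b3 b4 b5 b6
  have hu : u = 0 := by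
    funext i
    fin_cases i <;> simp <;> omega
  have hv : v = 0 := by
    funext i
    fin_cases i <;> simp <;> omega
  rw [hu, hv]
  simp [cmb]

theorem surj12 (s : A1) (t : A2) (h : r1 s = r2 t) : ∃ z, p1 z = s ∧ p2 z = t := by
  obtain ⟨k1, h1⟩ := half_F2 (x := s.fst.x0) (y := t.fst.x0)
    (congrArg (fun t : A0 => t.fst.x0) h)
  obtain ⟨k2, h2⟩ := half_F2 (x := s.fst.x1) (y := t.fst.x1)
    (congrArg (fun t : A0 => t.fst.x1) h)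
  obtain ⟨k3, h3⟩ := half_F2 (x := s.fst.x2) (y := t.fst.x2)
    (congrArg (fun t : A0 => t.fst.x2) h)
  obtain ⟨k4, h4⟩ := half_F2 (x := s.snd.x0) (y := t.snd.x0)
    (congrArg (fun t : A0 => t.snd.x0) h)
  obtain ⟨k5, h5⟩ := half_F2 (x := s.snd.x1) (y := t.snd.x1)
    (congrArg (fun t : A0 => t.snd.x1) h)
  obtain ⟨k6, h6⟩ := half_F2 (x := s.snd.x2) (y := t.snd.x2)
    (congrArg (fun t : A0 => t.snd.x2) h)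
  refine ⟨cmb ![t.fst.x0 + k1, k2, t.fst.x2 + k3, k1, t.fst.x1 + k2, k3]
    ![t.snd.x0 + k4, k5, t.snd.x2 + k6, k4, t.snd.x1 + k5, k6], ?_, ?_⟩
  · rw [p1_cmb]
    ext <;> simp [h1, h2, h3, h4, h5, h6] <;> ring
  · rw [p2_cmb]
    ext <;> simp

theorem TR3 : TR (ZG (QuaternionGroup 3)) :=
  TR_glue p1 p2 r1 r2 p12 inj12 surj12 TR_C3f TR_C3t (fun δ δ' h _ => lft1 δ δ' h)

/-- the D(2) property for the group `Q_12` -/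
theorem main3 : AlgebraicD2Property (QuaternionGroup 3) := d2_of_TR 3 TR3

end Vale.Agent.P246.Small.N3
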